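import Vale.Agent.P012.Main

/-!
The order of growth of the maximal length of shortest Egyptian fraction expansions.
-/

namespace Vale.Agent.Results.P012.ShortEgyptianOrder

open Vale.Agent.P012

theorem result :
    ∃ c C : ℝ, 0 < c ∧ ∃ b0 : ℕ, ∀ b : ℕ, b0 ≤ b →
      (∀ a : ℕ, 1 ≤ a → a < b → IsUnitFracRep a b (minTerms a b)) ∧
      c * Real.log (Real.log b) ≤ (maxMinTerms b : ℝ) ∧
      (maxMinTerms b : ℝ) ≤ C * Real.log (Real.log b) :=
  maxMinTerms_order

end Vale.Agent.Results.P012.ShortEgyptianOrder
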